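import Vale.Agent.P141.PL.Defs

/-!
# P141, line (A): the difference of two neighbouring cells is a sum of gaps of larger cells

`Mn N E`: the value on a cell of scale `k + 1` is the mean of the values on its two halves.
`gp E k M`: the gap (half difference of the halves) of the cell `M` of scale `k + 1`.

* `chain_up`: `E k m - E k (m - 1)` is the sum over `j < i` of `ct E k m j` plus a top difference
  at scale `k + i`, which is there only if `2 ^ i` divides `m`.  The term `j` uses the gaps of the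
  two cells of scale `k + j + 1` which meet at the jump (if the jump is an end) or twice the gap of
  the cell which has the jump as centre; it is zero if the jump is deeper.
* `sq_chain`: the square of a seminorm, weights.
* `sum_ct_le`: the count: the cell `M` of scale `k + j + 1` is used by `m = 2 ^ (j + 1) * M`,
  `2 ^ (j + 1) * (M + 1)` and `2 ^ j * (2 * M + 1)` only.
* `mn_mean`: means of a vector function over the cells `iv k m`.
-/

namespace Vale.Agent.P141.H40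

open Finset
open Vale.Agent.P141.PL (iv)

noncomputable section

section Mod

variable {V : Type*} [AddCommGroup V] [Module ℝ V]

/-- the coarse value is the mean of the two halves -/
def Mn (N : ℕ) (E : ℕ → ℤ → V) : Prop :=
  ∀ k < N, ∀ m : ℤ, E (k + 1) m = (1 / 2 : ℝ) • (E k (2 * m) + E k (2 * m + 1))

/-- the gap of the cell `M` of scale `k + 1` -/
def gp (E : ℕ → ℤ → V) (k : ℕ) (M : ℤ) : V := (1 / 2 : ℝ) • (E k (2 * M + 1) - E k (2 * M))

/-- the term `j` of the chain -/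
def ct (E : ℕ → ℤ → V) (k : ℕ) (m : ℤ) (j : ℕ) : V :=
  if (2 : ℤ) ^ (j + 1) ∣ m then
    -(gp E (k + j) (m / 2 ^ (j + 1)) + gp E (k + j) (m / 2 ^ (j + 1) - 1))
  else if (2 : ℤ) ^ j ∣ m then (2 : ℝ) • gp E (k + j) (m / 2 ^ (j + 1)) else 0

/-- the top difference -/
def tp (E : ℕ → ℤ → V) (k : ℕ) (m : ℤ) (i : ℕ) : V :=
  if (2 : ℤ) ^ i ∣ m then E (k + i) (m / 2 ^ i) - E (k + i) (m / 2 ^ i - 1) else 0

theorem step_even {N : ℕ} {E : ℕ → ℤ → V} (hE : Mn N E) {k : ℕ} (hk : k < N) (M : ℤ) :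
    E k (2 * M) - E k (2 * M - 1) =
      -(gp E k M + gp E k (M - 1)) + (E (k + 1) M - E (k + 1) (M - 1)) := by
  rw [hE k hk M, hE k hk (M - 1)]
  unfold gp
  rw [show 2 * (M - 1) + 1 = 2 * M - 1 by ring]
  module

theorem step_odd (E : ℕ → ℤ → V) (k : ℕ) (M : ℤ) :
    E k (2 * M + 1) - E k (2 * M) = (2 : ℝ) • gp E k M := by
  unfold gp
  module

/-- **the chain** -/
theorem chain_up {N : ℕ} {E : ℕ → ℤ → V} (hE : Mn N E) (k : ℕ) (m : ℤ) :
    ∀ i : ℕ, k + i ≤ N → E k m - E k (m - 1) = ∑ j ∈ range i, ct E k m j + tp E k m i := by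
  intro i
  induction i with
  | zero => intro _; simp [tp]
  | succ i ih =>
    intro h
    rw [ih (by omega), sum_range_succ, add_assoc]
    congr 1
    unfold tp ct
    by_cases h1 : (2 : ℤ) ^ (i + 1) ∣ m
    · have h0 : (2 : ℤ) ^ i ∣ m := (pow_dvd_pow 2 (Nat.le_succ i)).trans h1
      obtain ⟨M, rfl⟩ := h1
      have e1 : (2 : ℤ) ^ (i + 1) * M / 2 ^ (i + 1) = M :=
        Int.mul_ediv_cancel_left _ (by positivity)
      have e2 : (2 : ℤ) ^ (i + 1) * M / 2 ^ i = 2 * M := by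
        rw [pow_succ, mul_assoc]
        exact Int.mul_ediv_cancel_left _ (by positivity)
      rw [if_pos h0, if_pos (dvd_mul_right _ _), if_pos (dvd_mul_right _ _), e1, e2]
      exact step_even hE (by omega) M
    · by_cases h0 : (2 : ℤ) ^ i ∣ m
      · obtain ⟨q, rfl⟩ := h0
        have e2 : (2 : ℤ) ^ i * q / 2 ^ i = q := Int.mul_ediv_cancel_left _ (by positivity)
        have e1 : (2 : ℤ) ^ i * q / 2 ^ (i + 1) = q / 2 := by
          rw [pow_succ, ← Int.ediv_ediv_of_nonneg (by positivity), e2]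
        have hodd : q % 2 = 1 := by
          rcases Int.emod_two_eq_zero_or_one q with h | h
          · exfalso
            apply h1
            obtain ⟨r, hr⟩ := Int.dvd_of_emod_eq_zero h
            exact ⟨r, by rw [hr, pow_succ]; ring⟩
          · exact h
        have hq : q = 2 * (q / 2) + 1 := by omega
        rw [if_pos (dvd_mul_right _ _), if_neg h1, if_pos (dvd_mul_right _ _), if_neg h1,
          add_zero, e1, e2]
        have := step_odd E (k + i) (q / 2)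
        rw [← this]
        rw [show 2 * (q / 2) = q - 1 by omega, sub_add_cancel]
      · rw [if_neg h0, if_neg h1, if_neg h0, if_neg h1, add_zero]

/-! ### Values of the terms -/

theorem ct_end (E : ℕ → ℤ → V) (k : ℕ) (M : ℤ) (j : ℕ) :
    ct E k (2 ^ (j + 1) * M) j = -(gp E (k + j) M + gp E (k + j) (M - 1)) := by
  unfold ct
  rw [if_pos (dvd_mul_right _ _), Int.mul_ediv_cancel_left _ (by positivity)]

theorem not_dvd_mid (M : ℤ) (j : ℕ) : ¬ (2 : ℤ) ^ (j + 1) ∣ 2 ^ j * (2 * M + 1) := by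
  intro h
  rw [pow_succ] at h
  have h2 : (2 : ℤ) ∣ 2 * M + 1 := Int.dvd_of_mul_dvd_mul_left (by positivity) h
  omega

theorem mid_div (M : ℤ) (j : ℕ) : (2 : ℤ) ^ j * (2 * M + 1) / 2 ^ (j + 1) = M := by
  rw [pow_succ, ← Int.ediv_ediv_of_nonneg (by positivity),
    Int.mul_ediv_cancel_left _ (by positivity)]
  omega

theorem ct_mid (E : ℕ → ℤ → V) (k : ℕ) (M : ℤ) (j : ℕ) :
    ct E k (2 ^ j * (2 * M + 1)) j = (2 : ℝ) • gp E (k + j) M := by
  unfold ct
  rw [if_neg (not_dvd_mid M j), if_pos (dvd_mul_right _ _), mid_div]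

theorem ct_zero {E : ℕ → ℤ → V} {k : ℕ} {m : ℤ} {j : ℕ} (h : ¬ (2 : ℤ) ^ j ∣ m) :
    ct E k m j = 0 := by
  unfold ct
  rw [if_neg fun h1 => h ((pow_dvd_pow 2 (Nat.le_succ j)).trans h1), if_neg h]

/-! ### Squares -/

variable (p : Seminorm ℝ V)

theorem sn_sum (s : Finset ℕ) (f : ℕ → V) : p (∑ j ∈ s, f j) ≤ ∑ j ∈ s, p (f j) := by
  classical
  induction s using Finset.induction_on with
  | empty => simp
  | insert a s ha ih =>
    rw [sum_insert ha, sum_insert ha]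
    exact (map_add_le_add p _ _).trans (by linarith)

/-- weights: the square of a sum -/
theorem sn_sq_sum (s : Finset ℕ) (f : ℕ → V) (w : ℕ → ℝ) (hw : ∀ j ∈ s, 0 < w j)
    (h1 : ∑ j ∈ s, w j ≤ 1) : p (∑ j ∈ s, f j) ^ 2 ≤ ∑ j ∈ s, (w j)⁻¹ * p (f j) ^ 2 := by
  have h0 : ∑ j ∈ s, p (f j) ≤ ∑ j ∈ s, √(w j) * (√((w j)⁻¹) * p (f j)) := by
    refine sum_le_sum fun j hj => le_of_eq ?_
    rw [← mul_assoc, ← Real.sqrt_mul (hw j hj).le, mul_inv_cancel₀ (hw j hj).ne', Real.sqrt_one,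
      one_mul]
  have h2 := sum_mul_sq_le_sq_mul_sq s (fun j => √(w j)) fun j => √((w j)⁻¹) * p (f j)
  have e1 : ∑ j ∈ s, √(w j) ^ 2 = ∑ j ∈ s, w j :=
    sum_congr rfl fun j hj => Real.sq_sqrt (hw j hj).le
  have e2 : ∑ j ∈ s, (√((w j)⁻¹) * p (f j)) ^ 2 = ∑ j ∈ s, (w j)⁻¹ * p (f j) ^ 2 := by
    refine sum_congr rfl fun j hj => ?_
    rw [mul_pow, Real.sq_sqrt (inv_nonneg.2 (hw j hj).le)]
  rw [e1, e2] at h2
  have h3 : 0 ≤ ∑ j ∈ s, (w j)⁻¹ * p (f j) ^ 2 :=
    sum_nonneg fun j hj => mul_nonneg (inv_nonneg.2 (hw j hj).le) (sq_nonneg _)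
  calc p (∑ j ∈ s, f j) ^ 2 ≤ (∑ j ∈ s, p (f j)) ^ 2 :=
        pow_le_pow_left₀ (apply_nonneg p _) (sn_sum p s f) 2
    _ ≤ (∑ j ∈ s, √(w j) * (√((w j)⁻¹) * p (f j))) ^ 2 :=
        pow_le_pow_left₀ (sum_nonneg fun j _ => apply_nonneg p _) h0 2
    _ ≤ _ := h2
    _ ≤ 1 * _ := mul_le_mul_of_nonneg_right h1 h3
    _ = _ := one_mul _

/-- **square of a neighbour difference**: weights `w j`, `j ≤ i`, of total at most one; the last
one for the top difference -/
theorem sq_chain {N : ℕ} {E : ℕ → ℤ → V} (hE : Mn N E) (k : ℕ) (m : ℤ) (i : ℕ) (h : k + i ≤ N)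
    (w : ℕ → ℝ) (hw : ∀ j ≤ i, 0 < w j) (h1 : ∑ j ∈ range (i + 1), w j ≤ 1) :
    p (E k m - E k (m - 1)) ^ 2 ≤
      ∑ j ∈ range i, (w j)⁻¹ * p (ct E k m j) ^ 2 + (w i)⁻¹ * p (tp E k m i) ^ 2 := by
  have h2 := sn_sq_sum p (range (i + 1)) (fun j => if j < i then ct E k m j else tp E k m i) w
    (fun j hj => hw j (by simpa [Nat.lt_succ_iff] using hj)) h1
  rw [sum_range_succ, sum_range_succ, if_neg (lt_irrefl i)] at h2
  have e : ∑ j ∈ range i, (if j < i then ct E k m j else tp E k m i) =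
      ∑ j ∈ range i, ct E k m j :=
    sum_congr rfl fun j hj => if_pos (mem_range.1 hj)
  have e' : ∑ j ∈ range i, (w j)⁻¹ * p (if j < i then ct E k m j else tp E k m i) ^ 2 =
      ∑ j ∈ range i, (w j)⁻¹ * p (ct E k m j) ^ 2 :=
    sum_congr rfl fun j hj => by rw [if_pos (mem_range.1 hj)]
  rw [e, e', ← chain_up hE k m i h] at h2
  exact h2

theorem ct_end_sq (E : ℕ → ℤ → V) (k : ℕ) (M : ℤ) (j : ℕ) :
    p (ct E k (2 ^ (j + 1) * M) j) ^ 2 ≤
      2 * p (gp E (k + j) M) ^ 2 + 2 * p (gp E (k + j) (M - 1)) ^ 2 := by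
  rw [ct_end, map_neg_eq_map]
  have h := map_add_le_add p (gp E (k + j) M) (gp E (k + j) (M - 1))
  nlinarith [apply_nonneg p (gp E (k + j) M + gp E (k + j) (M - 1)),
    apply_nonneg p (gp E (k + j) M), apply_nonneg p (gp E (k + j) (M - 1)),
    sq_nonneg (p (gp E (k + j) M) - p (gp E (k + j) (M - 1)))]

theorem ct_mid_sq (E : ℕ → ℤ → V) (k : ℕ) (M : ℤ) (j : ℕ) :
    p (ct E k (2 ^ j * (2 * M + 1)) j) ^ 2 = 4 * p (gp E (k + j) M) ^ 2 := by
  rw [ct_mid, map_smul_eq_mul, mul_pow, Real.norm_eq_abs, abs_of_pos (by norm_num : (0:ℝ) < 2)]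
  norm_num

/-- a sum over the cells of scale `k` inside the cell `R` of scale `k + j + 1 + r`: only the ends
and the centres of the cells of scale `k + j + 1` are seen -/
theorem sum_dvd {W : Type*} [AddCommMonoid W] (f : ℤ → W) (j r : ℕ) (R : ℤ)
    (hf : ∀ m, ¬ (2 : ℤ) ^ j ∣ m → f m = 0) :
    ∑ m ∈ iv (j + 1 + r) R, f m =
      ∑ M ∈ iv r R, (f (2 ^ (j + 1) * M) + f (2 ^ j * (2 * M + 1))) := by
  classical
  have hp : (0 : ℤ) < 2 ^ j := by positivity
  have e1 : ∑ m ∈ iv (j + 1 + r) R, f m =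
      ∑ q ∈ iv (1 + r) R, f (2 ^ j * q) := by
    symm
    have hinj : Set.InjOn (fun q : ℤ => 2 ^ j * q) (iv (1 + r) R) := by
      intro a _ b _ hab
      exact mul_left_cancel₀ hp.ne' hab
    rw [← sum_image (f := f) hinj]
    refine sum_subset ?_ ?_
    · intro m hm
      obtain ⟨q, hq, rfl⟩ := mem_image.1 hm
      unfold iv at hq ⊢
      rw [mem_Ico] at hq ⊢
      have e : (2 : ℤ) ^ (j + 1 + r) = 2 ^ j * 2 ^ (1 + r) := by rw [← pow_add]; congr 1; omega
      rw [e]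
      constructor
      · calc (2 : ℤ) ^ j * 2 ^ (1 + r) * R = 2 ^ j * (2 ^ (1 + r) * R) := by ring
          _ ≤ 2 ^ j * q := mul_le_mul_of_nonneg_left hq.1 hp.le
      · calc (2 : ℤ) ^ j * q < 2 ^ j * (2 ^ (1 + r) * R + 2 ^ (1 + r)) :=
              mul_lt_mul_of_pos_left hq.2 hp
          _ = _ := by ring
    · intro m hm hn
      apply hf
      rintro ⟨q, rfl⟩
      apply hn
      refine mem_image.2 ⟨q, ?_, rfl⟩
      unfold iv at hm ⊢
      rw [mem_Ico] at hm ⊢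
      have e : (2 : ℤ) ^ (j + 1 + r) = 2 ^ j * 2 ^ (1 + r) := by rw [← pow_add]; congr 1; omega
      rw [e] at hm
      constructor
      · refine le_of_mul_le_mul_left ?_ hp
        calc (2 : ℤ) ^ j * (2 ^ (1 + r) * R) = 2 ^ j * 2 ^ (1 + r) * R := by ring
          _ ≤ _ := hm.1
      · refine lt_of_mul_lt_mul_left ?_ hp.le
        calc (2 : ℤ) ^ j * q < _ := hm.2
          _ = 2 ^ j * (2 ^ (1 + r) * R + 2 ^ (1 + r)) := by ring
  rw [e1]
  have e2 : ∑ q ∈ iv (1 + r) R, f (2 ^ j * q) =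
      ∑ M ∈ iv r R, ∑ q ∈ ({2 * M, 2 * M + 1} : Finset ℤ), f (2 ^ j * q) := by
    rw [← sum_biUnion]
    · refine sum_congr ?_ fun _ _ => rfl
      ext q
      unfold iv
      rw [mem_biUnion, mem_Ico]
      have e : (2 : ℤ) ^ (1 + r) = 2 * 2 ^ r := by rw [pow_add, pow_one]
      rw [e]
      constructor
      · intro h
        refine ⟨q / 2, ?_, ?_⟩
        · rw [mem_Ico]
          have h1 : 2 * (2 : ℤ) ^ r * R = 2 * (2 ^ r * R) := by ring
          rw [h1] at h
          omega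
        · rw [mem_insert, mem_singleton]; omega
      · rintro ⟨M, hM, hq⟩
        rw [mem_Ico] at hM
        rw [mem_insert, mem_singleton] at hq
        have h1 : 2 * (2 : ℤ) ^ r * R = 2 * (2 ^ r * R) := by ring
        rw [h1]
        omega
    · intro a _ b _ hab
      rw [Function.onFun, disjoint_left]
      intro q hq hq'
      rw [mem_insert, mem_singleton] at hq hq'
      omega
  rw [e2]
  refine sum_congr rfl fun M _ => ?_
  rw [sum_pair (by omega)]
  congr 2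
  rw [pow_succ]; ring

/-- **the count** with a weight `φ` on the small cells -/
theorem sum_ct_le (E : ℕ → ℤ → V) (k j r : ℕ) (R : ℤ) (φ : ℤ → ℝ) (hφ : ∀ m, 0 ≤ φ m) :
    ∑ m ∈ iv (j + 1 + r) R, φ m * p (ct E k m j) ^ 2 ≤
      ∑ M ∈ iv r R, (φ (2 ^ (j + 1) * M) *
          (2 * p (gp E (k + j) M) ^ 2 + 2 * p (gp E (k + j) (M - 1)) ^ 2) +
        φ (2 ^ j * (2 * M + 1)) * (4 * p (gp E (k + j) M) ^ 2)) := by
  rw [sum_dvd (fun m => φ m * p (ct E k m j) ^ 2) j r R ?_]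
  · refine sum_le_sum fun M _ => ?_
    rw [ct_mid_sq]
    exact add_le_add (mul_le_mul_of_nonneg_left (ct_end_sq p E k M j) (hφ _)) le_rfl
  · intro m hm
    rw [ct_zero hm, map_zero]
    ring

/-! ### Means over cells -/

/-- the mean of a vector function over the cell `m` of scale `k` -/
def mean (F : ℤ → V) (k : ℕ) (m : ℤ) : V := (2 ^ k : ℝ)⁻¹ • ∑ x ∈ iv k m, F x

theorem mn_mean (F : ℤ → V) (N : ℕ) : Mn N (mean F) := by
  intro k _ m
  unfold mean
  have e : ∑ x ∈ iv (k + 1) m, F x = ∑ x ∈ iv k (2 * m), F x + ∑ x ∈ iv k (2 * m + 1), F x := by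
    have hd : Disjoint (iv k (2 * m)) (iv k (2 * m + 1)) := by
      unfold iv
      rw [disjoint_left]
      intro x hx hx'
      rw [mem_Ico] at hx hx'
      have : (2 : ℤ) ^ k * (2 * m + 1) = 2 ^ k * (2 * m) + 2 ^ k := by ring
      omega
    rw [← sum_union hd]
    refine sum_congr ?_ fun _ _ => rfl
    ext x
    unfold iv
    rw [mem_union, mem_Ico, mem_Ico, mem_Ico]
    have h1 : (2 : ℤ) ^ k * (2 * m + 1) = 2 ^ k * (2 * m) + 2 ^ k := by ring
    have h2 : (2 : ℤ) ^ (k + 1) * m = 2 ^ k * (2 * m) := by rw [pow_succ]; ring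
    have h3 : (2 : ℤ) ^ (k + 1) = 2 ^ k + 2 ^ k := by rw [pow_succ]; ring
    rw [h1, h2, h3]
    have : (0 : ℤ) < 2 ^ k := by positivity
    omega
  rw [e, ← smul_add, smul_smul]
  congr 1
  rw [pow_succ, mul_inv]
  ring

end Mod

end

end Vale.Agent.P141.H40
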